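import Vale.Agent.P334.Final

/-!
The approximation threshold of metric `k`-median is `1 + 2 / e`.
-/

namespace Vale.Agent.Results.P334.AThreshold

open Vale.Agent.P334

/-- For every `ε > 0` metric `k`-median has a randomized polynomial time
`(1 + 2 / e + ε)`-approximation algorithm, and unless NP is contained in BPP the approximation
threshold is `1 + 2 / e`. -/
theorem result : (∀ ε : ℝ, 0 < ε → HasApprox (1 + 2 / Real.exp 1 + ε)) ∧
    (¬ NP ⊆ BPP → alphaStar = 1 + 2 / Real.exp 1) := final

end Vale.Agent.Results.P334.AThreshold
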